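import Vale.Agent.Lib.P080.Sub3

/-!
Infinity-harmonic functions that are sums of functions of coordinates with orthonormal gradients
are `C^{1,1/3}`, in every dimension.
Definitions (`infLap`, `InfHarmonicOn`) are in `Vale/Agent/Lib/P080/Defs.lean`.
-/

namespace Vale.Agent.Results.P080.OrthoCoordinates

open _root_.P080
open Filter Topology

theorem result {d m : ℕ} {Ω : Set (EuclideanSpace ℝ (Fin d))} (hΩ : IsOpen Ω)
    {u : EuclideanSpace ℝ (Fin d) → ℝ} (hu : InfHarmonicOn u Ω)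
    (ρ : Fin m → EuclideanSpace ℝ (Fin d) → ℝ) (hρ : ∀ k, ContDiffOn ℝ 2 (ρ k) Ω)
    (ho : ∀ x ∈ Ω, ∀ j k,
      inner ℝ (gradient (ρ j) x) (gradient (ρ k) x) = if j = k then (1 : ℝ) else 0)
    (f : Fin m → ℝ → ℝ) (hsep : ∀ x ∈ Ω, u x = ∑ k, f k (ρ k x)) :
    (∀ x ∈ Ω, DifferentiableAt ℝ u x) ∧ ContinuousOn (gradient u) Ω ∧
    ∀ z ∈ Ω,
      (∃ C : ℝ, ∀ᶠ p : EuclideanSpace ℝ (Fin d) × EuclideanSpace ℝ (Fin d) in 𝓝 (z, z),
        ‖gradient u p.1 - gradient u p.2‖ ^ 3 ≤ C * ‖p.1 - p.2‖) ∧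
      ∃ a e : Fin m → ℝ, ∑ k, a k = 0 ∧ ∀ᶠ x in 𝓝 z, ∀ k,
        (inner ℝ (gradient (ρ k) x) (gradient u x)) ^ 3 = a k * ρ k x + e k := by
  have key : ∀ z ∈ Ω, _ := fun z hz => (exists_loc hΩ hu hρ ho hsep hz).choose_spec.main
  refine ⟨fun x hx => (key x hx).1, fun x hx => ?_, fun z hz => (key z hz).2⟩
  obtain ⟨C, hC⟩ := (key x hx).2.1
  exact (continuousAt_of_holder hC).continuousWithinAt

end Vale.Agent.Results.P080.OrthoCoordinates
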