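import Vale.Agent.Lib.P080.Main

/-!
Additively separable infinity-harmonic functions have the optimal regularity `C^{1,1/3}` with an
interior estimate whose constant depends only on the dimension, in every dimension.
Definitions (`infLap`, `InfHarmonicOn`) are in `Vale/Agent/Lib/P080/Defs.lean`.
-/

namespace Vale.Agent.Results.P080.Separable

open _root_.P080

theorem result {d : ℕ} {Ω : Set (EuclideanSpace ℝ (Fin d))} (hΩ : IsOpen Ω)
    {u : EuclideanSpace ℝ (Fin d) → ℝ} (hu : InfHarmonicOn u Ω)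
    (b : OrthonormalBasis (Fin d) ℝ (EuclideanSpace ℝ (Fin d))) (f : Fin d → ℝ → ℝ)
    (hsep : ∀ x ∈ Ω, u x = ∑ i, f i (inner ℝ (b i) x)) :
    (∀ x ∈ Ω, DifferentiableAt ℝ u x) ∧ ContinuousOn (gradient u) Ω ∧
    ∀ (z : EuclideanSpace ℝ (Fin d)) (R M : ℝ), 0 < R → Metric.ball z R ⊆ Ω →
      (∀ x ∈ Metric.ball z R, ∀ y ∈ Metric.ball z R, |u x - u y| ≤ M) →
      (∀ x ∈ Metric.ball z (R / √(d : ℝ)), ∀ y ∈ Metric.ball z (R / √(d : ℝ)),
        ‖gradient u x - gradient u y‖ ^ 3 ≤ 128 * d ^ 5 * M ^ 3 / R ^ 4 * ‖x - y‖) ∧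
      ∃ a e : Fin d → ℝ, ∑ i, a i = 0 ∧ ∀ x ∈ Metric.ball z (R / √(d : ℝ)), ∀ i,
        (inner ℝ (b i) (gradient u x)) ^ 3 = a i * inner ℝ (b i) x + e i := by
  have hsep' : ∀ x ∈ Ω, u x = ∑ i, f i (innerSL ℝ (b i) x) := fun x hx => by
    rw [hsep x hx]; rfl
  exact ⟨fun x hx => (main_diff hΩ hu b f hsep' hx).1,
    fun x hx => (main_diff hΩ hu b f hsep' hx).2.continuousWithinAt,
    fun z R M hR hB hM => main_holder hu b f hsep' z hR hB hM⟩

end Vale.Agent.Results.P080.Separable
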